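import Mathlib
import Vale.Agent.Lib.P052.Geom

/-- Borsuk's conjecture fails in dimension 63: there is a finite set of `R^63` of positive diameter
that is not a union of 64 sets of strictly smaller diameter. -/
theorem Vale.Agent.Results.P052.BorsukDim63.result :
    ∃ Y : Set (EuclideanSpace ℝ (Fin 63)), Y.Finite ∧ 0 < Metric.diam Y ∧
      ¬ ∃ c : Fin 64 → Set (EuclideanSpace ℝ (Fin 63)),
        Y = ⋃ i, c i ∧ ∀ i, Metric.diam (c i) < Metric.diam Y :=
  Vale.Agent.Lib.P052.main
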